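import Vale.Agent.P116.Slow.TPX
import Vale.Agent.P116.Cl.H967.Ug

/-!
# Length-area in the picture for functions with a continuous upper gradient off `K`
-/

open Set Filter Topology Metric Bornology MeasureTheory
open scoped Real ENNReal NNReal

namespace Vale.Agent.P116.KF.H737

open H906 Slow Cl.H967

/-- extension of `u` from the frontier of a compact set, without enlarging the range -/
lemma exists_ext {P : Set ℂ} (hP : IsCompact P) (hne : P.Nonempty) {u : ℂ → ℝ}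
    (hu : ContinuousOn u (frontier P)) {o : ℝ}
    (ho : ∀ x ∈ frontier P, ∀ y ∈ frontier P, |u x - u y| ≤ o) :
    ∃ (e : ℂ → ℝ) (lo hi : ℝ), Continuous e ∧ (∀ z, e z ∈ Icc lo hi) ∧ 0 ≤ hi - lo ∧
      hi - lo ≤ o ∧ ∀ z ∈ frontier P, e z = u z := by
  have hfne : (frontier P).Nonempty := by
    rw [nonempty_frontier_iff]
    refine ⟨hne, fun h => ?_⟩
    have h1 := hP
    rw [h] at h1
    exact noncompact_univ ℂ h1
  have hfc : IsCompact (frontier P) := hP.of_isClosed_subset isClosed_frontier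
    hP.isClosed.frontier_subset
  obtain ⟨x, hx, hxm⟩ := hfc.exists_isMinOn hfne hu
  obtain ⟨y, hy, hym⟩ := hfc.exists_isMaxOn hfne hu
  have hxy : u x ≤ u y := hxm hy
  obtain ⟨g, hg, hgr⟩ := ContinuousMap.exists_restrict_eq_forall_mem_of_closed
    (⟨(frontier P).domRestrict u, continuousOn_iff_continuous_domRestrict.1 hu⟩ : C(frontier P, ℝ))
    (t := Icc (u x) (u y)) (fun z => ⟨hxm z.2, hym z.2⟩) ⟨u x, le_rfl, hxy⟩ isClosed_frontier
  refine ⟨g, u x, u y, g.continuous, hg, by linarith, ?_, fun z hz => ?_⟩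
  · have := ho y hy x hx
    exact (le_abs_self _).trans this
  · have := congrArg (fun k : C(frontier P, ℝ) => k ⟨z, hz⟩) hgr
    exact this

theorem rectH_aux {K Q : Set ℂ} {S : Set (Set ℂ)} (hS : Adm S) {f : ℂ → ℂ} {c : Set ℂ → ℂ}
    {r : Set ℂ → ℝ} (h : CMap S f c r)
    {u ρ : ℂ → ℝ} {o : Set ℂ → ℝ} {R M ε : ℝ} (hε : 0 ≤ ε) (hM0 : 0 < M)
    (hQc : IsCompact Q) (hQ : IsPreconnected Q) (hSQ : ∀ P ∈ S, P ⊆ Q ∨ Disjoint P Q)
    (hcov : K ⊆ Q ∪ ⋃₀ S)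
    (hfQ : Disjoint (frontier Q) K) (hfP : ∀ P ∈ S, Disjoint (frontier P) K)
    (hR : Q ∪ ⋃₀ S ⊆ ball 0 R)
    (hu : ContinuousOn u (Kᶜ ∩ (interior Q)ᶜ)) (hu1 : ∀ z ∈ frontier Q, 1 / 2 ≤ u z)
    (hu0 : ∀ z, R ≤ ‖z‖ → u z ≤ 0)
    (hρ : ContinuousOn ρ (Kᶜ ∩ Qᶜ)) (hρ0 : ∀ z ∈ Kᶜ ∩ Qᶜ, 0 ≤ ρ z)
    (hmaj : ∀ x y, segment ℝ x y ⊆ Kᶜ ∩ Qᶜ → ∀ B, (∀ z ∈ segment ℝ x y, ρ z ≤ B) →
      |u x - u y| ≤ B * ‖x - y‖)
    (hen : ∫⁻ z in Kᶜ ∩ Qᶜ ∩ ball 0 R, ENNReal.ofReal (ρ z ^ 2) ≤ ENNReal.ofReal ε)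
    (ho : ∀ P ∈ S, Disjoint P Q → ∀ x ∈ frontier P, ∀ y ∈ frontier P, |u x - u y| ≤ o P)
    (hoS : ∀ J : Finset (Set ℂ), (∀ P ∈ J, P ∈ S ∧ Disjoint P Q) → ∑ P ∈ J, o P ^ 2 ≤ ε)
    (hM : Tm S f c r (ball 0 R) ⊆ closedBall 0 M) {N : ℝ} (hN : 0 < N) {a : ℂ} (ha : ‖a‖ = 1)
    {w₁ w₂ : ℂ} (hw₁ : w₁ ∈ Tm S f c r Q) (hw₂ : w₂ ∈ Tm S f c r Q) :
    (prj a w₂ - prj a w₁) / 2 ≤ N * ε / 2 + π * M ^ 2 / (2 * N) + (N * ε + M ^ 2 / N) := by
  classical
  set α := prj a w₁ with hα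
  set β := prj a w₂ with hβ
  set O : Set ℂ := (⋃₀ S)ᶜ with hO
  have hOo : IsOpen O := hS.isOpen_compl
  have hsub1 : ∀ P ∈ S, P ⊆ ball 0 R := fun P hP z hz => hR (Or.inr ⟨P, hP, hz⟩)
  have hQR : Q ⊆ ball 0 R := fun z hz => hR (Or.inl hz)
  -- the extension
  have hfr : ∀ P ∈ S, Disjoint P Q → frontier P ⊆ Kᶜ ∩ (interior Q)ᶜ := by
    intro P hP hPQ z hz
    have hzP : z ∈ P := (hS.cpt P hP).isClosed.frontier_subset hz
    exact ⟨fun hzK => disjoint_left.1 (hfP P hP) hz hzK,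
      fun hzQ => disjoint_left.1 hPQ hzP (interior_subset hzQ)⟩
  have hex : ∀ P : Set ℂ, ∃ (e : ℂ → ℝ) (lo hi : ℝ), (P ∈ S ∧ Disjoint P Q) →
      (Continuous e ∧ (∀ z, e z ∈ Icc lo hi) ∧ 0 ≤ hi - lo ∧
      hi - lo ≤ o P ∧ ∀ z ∈ frontier P, e z = u z) := by
    intro P
    by_cases hP : P ∈ S ∧ Disjoint P Q
    · obtain ⟨e, lo, hi, he⟩ := exists_ext (hS.cpt P hP.1) (hS.conn P hP.1).nonempty
        (hu.mono (hfr P hP.1 hP.2)) (ho P hP.1 hP.2)
      exact ⟨e, lo, hi, fun _ => he⟩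
    · exact ⟨0, 0, 0, fun h => absurd h hP⟩
  choose e lo hi he using hex
  set v : ℂ → ℝ := fun z => if z ∈ Q then 1 / 2 else
    if hz : ∃ P ∈ S, z ∈ P then min (1 / 2) (e hz.choose z) else min (1 / 2) (u z) with hv
  have hvQ : ∀ z ∈ Q, v z = 1 / 2 := fun z hz => by simp only [hv]; rw [if_pos hz]
  have hvP : ∀ P ∈ S, Disjoint P Q → ∀ z ∈ P, v z = min (1 / 2) (e P z) := by
    intro P hP hPQ z hz
    have hzQ : z ∉ Q := fun h1 => disjoint_left.1 hPQ hz h1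
    have h1 : ∃ P ∈ S, z ∈ P := ⟨P, hP, hz⟩
    have h2 : h1.choose = P := by
      by_contra hne
      exact disjoint_left.1 (hS.disj _ h1.choose_spec.1 P hP hne) h1.choose_spec.2 hz
    simp only [hv]
    rw [if_neg hzQ, dif_pos h1, h2]
  have hvO : ∀ z, z ∉ Q → z ∉ ⋃₀ S → v z = min (1 / 2) (u z) := by
    intro z hzQ hzS
    simp only [hv]
    rw [if_neg hzQ, dif_neg]
    rintro ⟨P, hP, hz⟩
    exact hzS ⟨P, hP, hz⟩
  set S' : Set (Set ℂ) := {P | P ∈ S ∧ Disjoint P Q} with hS'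
  have hS'f : S'.Finite := hS.fin.subset fun P hP => hP.1
  set D : Set ℂ := (interior Q ∪ ⋃ P ∈ S', interior P)ᶜ with hD
  have hDc : IsClosed D :=
    (isOpen_interior.union (isOpen_biUnion fun P _ => isOpen_interior)).isClosed_compl
  have hvD : ∀ z ∈ D, v z = min (1 / 2) (u z) := by
    intro z hz
    by_cases hzQ : z ∈ Q
    · have h1 : z ∈ frontier Q := by
        rw [hQc.isClosed.frontier_eq]
        exact ⟨hzQ, fun h2 => hz (Or.inl h2)⟩
      rw [hvQ z hzQ, min_eq_left (hu1 z h1)]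
    · by_cases hzS : z ∈ ⋃₀ S
      · obtain ⟨P, hP, hzP⟩ := hzS
        have hPQ : Disjoint P Q := (hSQ P hP).resolve_left fun h1 => hzQ (h1 hzP)
        have h1 : z ∈ frontier P := by
          rw [(hS.cpt P hP).isClosed.frontier_eq]
          exact ⟨hzP, fun h2 => hz (Or.inr (mem_iUnion₂.2 ⟨P, ⟨hP, hPQ⟩, h2⟩))⟩
        rw [hvP P hP hPQ z hzP, (he P ⟨hP, hPQ⟩).2.2.2.2 z h1]
      · exact hvO z hzQ hzS
  have hDK : D ⊆ Kᶜ ∩ (interior Q)ᶜ := by
    intro z hz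
    refine ⟨fun hzK => ?_, fun h1 => hz (Or.inl h1)⟩
    by_cases hzQ : z ∈ Q
    · have h1 : z ∈ frontier Q := by
        rw [hQc.isClosed.frontier_eq]
        exact ⟨hzQ, fun h2 => hz (Or.inl h2)⟩
      exact disjoint_left.1 hfQ h1 hzK
    · obtain ⟨P, hP, hzP⟩ := (hcov hzK).resolve_left hzQ
      have hPQ : Disjoint P Q := (hSQ P hP).resolve_left fun h1 => hzQ (h1 hzP)
      have h1 : z ∈ frontier P := by
        rw [(hS.cpt P hP).isClosed.frontier_eq]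
        exact ⟨hzP, fun h2 => hz (Or.inr (mem_iUnion₂.2 ⟨P, ⟨hP, hPQ⟩, h2⟩))⟩
      exact disjoint_left.1 (hfP P hP) h1 hzK
  have hvc : Continuous v := by
    have : Finite S' := hS'f
    refine LocallyFinite.continuous (f := fun i : Option (Option S') =>
      match i with
      | none => Q
      | some none => D
      | some (some P) => P.1) (locallyFinite_of_finite _) ?_ ?_ ?_
    · rw [eq_univ_iff_forall]
      intro z
      by_cases hz : z ∈ D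
      · exact mem_iUnion.2 ⟨some none, hz⟩
      · rw [hD, notMem_compl_iff] at hz
        rcases hz with hz | hz
        · exact mem_iUnion.2 ⟨none, interior_subset hz⟩
        · obtain ⟨P, hP, hz⟩ := mem_iUnion₂.1 hz
          exact mem_iUnion.2 ⟨some (some ⟨P, hP⟩), interior_subset hz⟩
    · rintro (_ | _ | P)
      · exact hQc.isClosed
      · exact hDc
      · exact (hS.cpt P.1 P.2.1).isClosed
    · rintro (_ | _ | P)
      · exact continuousOn_const.congr (f := fun _ => (1 / 2 : ℝ)) fun z hz => hvQ z hz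
      · refine ContinuousOn.congr (f := fun z => min (1 / 2) (u z)) ?_ fun z hz => hvD z hz
        exact ContinuousOn.inf continuousOn_const (hu.mono hDK)
      · refine ContinuousOn.congr (f := fun z => min (1 / 2) (e P.1 z)) ?_
          fun z hz => hvP P.1 P.2.1 P.2.2 z hz
        exact (continuous_const.min (he P.1 P.2).1).continuousOn
  -- the open part
  set A : Set ℂ := Qᶜ ∩ O ∩ ball 0 R with hA
  have hAo : IsOpen A := (hQc.isClosed.isOpen_compl.inter hOo).inter isOpen_ball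
  have hAK : A ⊆ Kᶜ ∩ Qᶜ := by
    intro z hz
    refine ⟨fun hzK => ?_, hz.1.1⟩
    rcases hcov hzK with h1 | h1
    · exact hz.1.1 h1
    · exact hz.1.2 h1
  set J : Finset (Set ℂ) := hS'f.toFinset with hJ
  have hJm : ∀ P, P ∈ J ↔ P ∈ S ∧ Disjoint P Q := fun P => by
    rw [hJ, hS'f.mem_toFinset]
    rfl
  -- the covering
  have hcover : box (Ioo 0 (1 / 2)) (Ioo α β) ⊆ Ph u (fun z => prj a (f z)) '' A ∪
      ⋃ P ∈ J, box (Icc (lo P) (hi P)) (prj a '' closedBall (c P) (r P)) := by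
    rintro w ⟨ht, hτ⟩
    set t := w.re with htdef
    set τ := w.im with hτdef
    set Δ : Set ℂ := {w : ℂ | prj a w = τ} with hΔ
    have hpull := h.pull hS (isPreconnected_line a τ)
    have hunb := h.pull_unbdd hS (not_isBounded_line ha τ)
    obtain ⟨y, hy, hyτ⟩ := (isPreconnected_prj (h.push hS hQ) a).ordConnected.out
      (mem_image_of_mem _ hw₁) (mem_image_of_mem _ hw₂) (⟨hτ.1.le, hτ.2.le⟩ : τ ∈ Icc _ _)
    obtain ⟨z₁, hz₁, hz₁b⟩ : ∃ z₁ ∈ Tp S f c r Δ, z₁ ∈ Q := by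
      rcases hy with ⟨z, ⟨hz, hzO⟩, rfl⟩ | hy
      · exact ⟨z, Or.inl ⟨hzO, hyτ⟩, hz⟩
      · obtain ⟨P, ⟨hP, z, hz, hzP⟩, hyP⟩ := mem_iUnion₂.1 hy
        exact ⟨z, Or.inr ⟨P, hP, hzP, y, hyτ, hyP⟩, hz⟩
    obtain ⟨z₂, hz₂, hz₂b⟩ : ∃ z₂ ∈ Tp S f c r Δ, R ≤ ‖z₂‖ := by
      by_contra hcon
      push Not at hcon
      refine hunb ((isBounded_ball (x := (0:ℂ)) (r := R)).subset fun z hz => ?_)
      rw [mem_ball, dist_zero_right]
      exact hcon z hz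
    have hfar : ∀ z : ℂ, R ≤ ‖z‖ → v z ≤ 0 := by
      intro z hz
      have h1 : z ∉ ball (0:ℂ) R := by
        rw [mem_ball, dist_zero_right, not_lt]
        exact hz
      rw [hvO z (fun h2 => h1 (hQR h2)) (fun h2 => h1 (hR (Or.inr h2)))]
      exact (min_le_right _ _).trans (hu0 z hz)
    obtain ⟨z, hz, hzt⟩ := (hpull.image v hvc.continuousOn).ordConnected.out
      (mem_image_of_mem v hz₂) (mem_image_of_mem v hz₁)
      (by
        rw [hvQ z₁ hz₁b]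
        exact ⟨(hfar z₂ hz₂b).trans ht.1.le, ht.2.le⟩ : t ∈ Icc _ _)
    have hzR : z ∈ ball (0:ℂ) R := by
      by_contra hzR
      rw [mem_ball, dist_zero_right, not_lt] at hzR
      have := hfar z hzR
      rw [hzt] at this
      exact absurd ht.1 (not_lt.2 this)
    have hzQ : z ∉ Q := by
      intro hzQ
      rw [hvQ z hzQ] at hzt
      exact ht.2.ne hzt.symm
    have hmin : ∀ x : ℝ, min (1 / 2) x = t → x = t := by
      intro x hx
      rcases min_cases (1 / 2 : ℝ) x with ⟨h1, h2⟩ | ⟨h1, h2⟩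
      · rw [h1] at hx
        exact absurd hx.symm ht.2.ne
      · rw [← h1, hx]
    rcases hz with ⟨hzO, hzτ⟩ | ⟨P, hP, hzP, v', hv', hv'P⟩
    · left
      refine ⟨z, ⟨⟨hzQ, hzO⟩, hzR⟩, Complex.ext ?_ ?_⟩
      · rw [Ph_re]
        rw [hvO z hzQ hzO] at hzt
        exact hmin _ hzt
      · rw [Ph_im]
        exact hzτ
    · right
      have hPQ : Disjoint P Q := (hSQ P hP).resolve_left fun h1 => hzQ (h1 hzP)
      refine mem_iUnion₂.2 ⟨P, (hJm P).2 ⟨hP, hPQ⟩, ?_, v', hv'P, hv'⟩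
      rw [hvP P hP hPQ z hzP] at hzt
      rw [← htdef, ← hmin _ hzt]
      exact (he P ⟨hP, hPQ⟩).2.1 z
  have hmeas := measure_mono (μ := volume) hcover
  rw [volume_box] at hmeas
  have hb1 : volume (Ioo (0:ℝ) (1 / 2)) = ENNReal.ofReal (1 / 2) := by simp
  rw [hb1, Real.volume_Ioo, ← ENNReal.ofReal_mul (by norm_num)] at hmeas
  -- the open part
  have hug1 : UG A u ρ := ⟨hρ.mono hAK, fun z hz => hρ0 z (hAK hz),
    fun x y hs B hB => hmaj x y (hs.trans hAK) B hB⟩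
  have hlip : LipschitzWith 1 (prj a) := by
    refine LipschitzWith.of_dist_le_mul fun x y => ?_
    rw [Real.dist_eq, dist_eq_norm, NNReal.coe_one, one_mul]
    have h1 : prj a x - prj a y = (a * (x - y)).re := by
      simp [prj, mul_sub]
    rw [h1]
    refine (Complex.abs_re_le_norm _).trans (le_of_eq ?_)
    rw [norm_mul, ha, one_mul]
  have hdf : DifferentiableOn ℂ f A := h.nu.diff.mono fun z hz => hz.1.2
  have hug2 := UG.of_comp hAo hdf hlip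
  have hA1 : volume (Ph u (fun z => prj a (f z)) '' A) ≤
      ENNReal.ofReal (N * ε / 2 + π * M ^ 2 / (2 * N)) := by
    refine (Dom.of_ug hAo hug1 hug2 A subset_rfl hAo.measurableSet).trans ?_
    have h2 : ∀ z ∈ A, ENNReal.ofReal (ρ z * ((1 : ℝ≥0) * ‖deriv f z‖)) ≤
        ENNReal.ofReal (N / 2) * ENNReal.ofReal (ρ z ^ 2) +
          ENNReal.ofReal (1 / (2 * N)) * ENNReal.ofReal (‖deriv f z‖ ^ 2) := by
      intro z hz
      rw [← ENNReal.ofReal_mul (by positivity), ← ENNReal.ofReal_mul (by positivity),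
        ← ENNReal.ofReal_add (by positivity) (by positivity)]
      apply ENNReal.ofReal_le_ofReal
      rw [NNReal.coe_one, one_mul]
      have h4 : N / 2 * ρ z ^ 2 + 1 / (2 * N) * ‖deriv f z‖ ^ 2 -
          ρ z * ‖deriv f z‖ =
          (N * ρ z - ‖deriv f z‖) ^ 2 / (2 * N) := by
        field_simp
        ring
      have h5 : 0 ≤ (N * ρ z - ‖deriv f z‖) ^ 2 / (2 * N) := by positivity
      linarith
    calc ∫⁻ z in A, ENNReal.ofReal (ρ z * ((1 : ℝ≥0) * ‖deriv f z‖))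
        ≤ ∫⁻ z in A, (ENNReal.ofReal (N / 2) * ENNReal.ofReal (ρ z ^ 2) +
          ENNReal.ofReal (1 / (2 * N)) * ENNReal.ofReal (‖deriv f z‖ ^ 2)) :=
          setLIntegral_mono' hAo.measurableSet h2
      _ = ENNReal.ofReal (N / 2) * (∫⁻ z in A, ENNReal.ofReal (ρ z ^ 2)) +
          ENNReal.ofReal (1 / (2 * N)) *
          ∫⁻ z in A, ENNReal.ofReal (‖deriv f z‖ ^ 2) := by
          rw [lintegral_add_right, lintegral_const_mul', lintegral_const_mul']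
          · exact ENNReal.ofReal_ne_top
          · exact ENNReal.ofReal_ne_top
          · exact (((measurable_deriv f).norm.pow_const 2).ennreal_ofReal).const_mul _
      _ ≤ ENNReal.ofReal (N / 2) * ENNReal.ofReal ε + ENNReal.ofReal (1 / (2 * N)) *
          ENNReal.ofReal (π * M ^ 2) := by
          refine add_le_add ?_ ?_
          · gcongr
            refine (lintegral_mono_set fun z hz => ?_).trans hen
            exact ⟨hAK hz, hz.2⟩
          · gcongr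
            rw [area_image hOo h.nu.diff h.nu.inj hAo.measurableSet (fun z hz => hz.1.2),
              ← volume_closedBall_real 0 hM0.le]
            refine measure_mono ?_
            rintro _ ⟨z, ⟨⟨_, hzO⟩, hzR⟩, rfl⟩
            exact hM (Or.inl ⟨z, ⟨hzR, hzO⟩, rfl⟩)
      _ = ENNReal.ofReal (N * ε / 2 + π * M ^ 2 / (2 * N)) := by
          rw [← ENNReal.ofReal_mul (by positivity), ← ENNReal.ofReal_mul (by positivity),
            ← ENNReal.ofReal_add (by positivity) (by positivity)]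
          congr 1
          field_simp
  -- the boxes
  have hB : volume (⋃ P ∈ J, box (Icc (lo P) (hi P)) (prj a '' closedBall (c P) (r P))) ≤
      ENNReal.ofReal (N * ε + M ^ 2 / N) := by
    have hr : ∀ P ∈ J, 0 ≤ r P := fun P hP => (h.rpos P ((hJm P).1 hP).1).le
    have h2 : ∀ P ∈ J, volume (box (Icc (lo P) (hi P)) (prj a '' closedBall (c P) (r P))) ≤
        ENNReal.ofReal (N * o P ^ 2 + r P ^ 2 / N) := by
      intro P hP
      obtain ⟨-, -, hlo, hloo, -⟩ := he P ((hJm P).1 hP)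
      rw [volume_box, Real.volume_Icc]
      have h4 : volume (prj a '' closedBall (c P) (r P)) ≤ ENNReal.ofReal (2 * r P) := by
        refine (measure_mono (prj_closedBall ha (r P))).trans (le_of_eq ?_)
        rw [Real.volume_Icc]
        congr 1
        ring
      refine (mul_le_mul' (ENNReal.ofReal_le_ofReal hloo) h4).trans ?_
      rw [← ENNReal.ofReal_mul (hlo.trans hloo)]
      apply ENNReal.ofReal_le_ofReal
      have h5 : 0 ≤ (N * o P - r P) ^ 2 / N := by positivity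
      have h6 : (N * o P - r P) ^ 2 / N =
          N * o P ^ 2 + r P ^ 2 / N - o P * (2 * r P) := by
        field_simp
        ring
      linarith
    refine (measure_biUnion_finset_le _ _).trans ((Finset.sum_le_sum h2).trans ?_)
    rw [← ENNReal.ofReal_sum_of_nonneg (fun P _ => by positivity)]
    apply ENNReal.ofReal_le_ofReal
    rw [Finset.sum_add_distrib, ← Finset.mul_sum, ← Finset.sum_div]
    refine add_le_add (mul_le_mul_of_nonneg_left (hoS J fun P hP => (hJm P).1 hP) hN.le) ?_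
    refine div_le_div_of_nonneg_right (sum_sq_le hM0.le hr ?_
      fun P hP Q hQ hne => h.disj P ((hJm P).1 hP).1 Q ((hJm Q).1 hQ).1 hne) hN.le
    intro P hP w hw
    have hPS := ((hJm P).1 hP).1
    obtain ⟨z, hz⟩ := (hS.conn P hPS).nonempty
    exact hM (Or.inr (mem_iUnion₂.2 ⟨P, ⟨hPS, z, hsub1 P hPS hz, hz⟩, hw⟩))
  have hfin := hmeas.trans ((measure_union_le _ _).trans (add_le_add hA1 hB))
  rw [← ENNReal.ofReal_add (by positivity) (by positivity),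
    ENNReal.ofReal_le_ofReal_iff (by positivity)] at hfin
  linarith

theorem rectH {K Q : Set ℂ} {S : Set (Set ℂ)} (hS : Adm S) {f : ℂ → ℂ} {c : Set ℂ → ℂ}
    {r : Set ℂ → ℝ} (h : CMap S f c r)
    {u ρ : ℂ → ℝ} {o : Set ℂ → ℝ} {R M ε : ℝ} (hε : 0 ≤ ε) (hM0 : 0 < M)
    (hQc : IsCompact Q) (hQ : IsPreconnected Q) (hSQ : ∀ P ∈ S, P ⊆ Q ∨ Disjoint P Q)
    (hcov : K ⊆ Q ∪ ⋃₀ S)
    (hfQ : Disjoint (frontier Q) K) (hfP : ∀ P ∈ S, Disjoint (frontier P) K)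
    (hR : Q ∪ ⋃₀ S ⊆ ball 0 R)
    (hu : ContinuousOn u (Kᶜ ∩ (interior Q)ᶜ)) (hu1 : ∀ z ∈ frontier Q, 1 / 2 ≤ u z)
    (hu0 : ∀ z, R ≤ ‖z‖ → u z ≤ 0)
    (hρ : ContinuousOn ρ (Kᶜ ∩ Qᶜ)) (hρ0 : ∀ z ∈ Kᶜ ∩ Qᶜ, 0 ≤ ρ z)
    (hmaj : ∀ x y, segment ℝ x y ⊆ Kᶜ ∩ Qᶜ → ∀ B, (∀ z ∈ segment ℝ x y, ρ z ≤ B) →
      |u x - u y| ≤ B * ‖x - y‖)
    (hen : ∫⁻ z in Kᶜ ∩ Qᶜ ∩ ball 0 R, ENNReal.ofReal (ρ z ^ 2) ≤ ENNReal.ofReal ε)
    (ho : ∀ P ∈ S, Disjoint P Q → ∀ x ∈ frontier P, ∀ y ∈ frontier P, |u x - u y| ≤ o P)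
    (hoS : ∀ J : Finset (Set ℂ), (∀ P ∈ J, P ∈ S ∧ Disjoint P Q) → ∑ P ∈ J, o P ^ 2 ≤ ε)
    (hM : Tm S f c r (ball 0 R) ⊆ closedBall 0 M) :
    ∀ w₁ ∈ Tm S f c r Q, ∀ w₂ ∈ Tm S f c r Q, dist w₁ w₂ ≤ 20 * M * Real.sqrt ε := by
  intro w₁ hw₁ w₂ hw₂
  rcases eq_or_ne w₂ w₁ with rfl | hne
  · rw [dist_self]
    positivity
  obtain ⟨a, ha, hd⟩ := exists_dir hne
  have key : ∀ N : ℝ, 0 < N → ‖w₂ - w₁‖ / 2 ≤
      N * ε / 2 + π * M ^ 2 / (2 * N) + (N * ε + M ^ 2 / N) := by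
    intro N hN
    rw [← hd]
    exact rectH_aux hS h hε hM0 hQc hQ hSQ hcov hfQ hfP hR hu hu1 hu0 hρ hρ0 hmaj hen ho hoS hM
      hN ha hw₁ hw₂
  rw [dist_comm, dist_eq_norm]
  have hpi : π < 4 := Real.pi_lt_four
  rcases hε.eq_or_lt with h0 | h0
  · exfalso
    have hpos : 0 < ‖w₂ - w₁‖ := norm_pos_iff.2 (sub_ne_zero.2 hne)
    have h1 := key (8 * M ^ 2 / ‖w₂ - w₁‖) (by positivity)
    rw [← h0] at h1
    have h2 : (8 * M ^ 2 / ‖w₂ - w₁‖) * 0 / 2 + π * M ^ 2 / (2 * (8 * M ^ 2 / ‖w₂ - w₁‖)) +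
        ((8 * M ^ 2 / ‖w₂ - w₁‖) * 0 + M ^ 2 / (8 * M ^ 2 / ‖w₂ - w₁‖)) =
        (π / 16 + 1 / 8) * ‖w₂ - w₁‖ := by
      field_simp
      ring
    rw [h2] at h1
    nlinarith
  · have hs : 0 < Real.sqrt ε := Real.sqrt_pos.2 h0
    have h1 := key (M / Real.sqrt ε) (by positivity)
    have hse : Real.sqrt ε * Real.sqrt ε = ε := Real.mul_self_sqrt hε
    have h2 : M / Real.sqrt ε * ε / 2 + π * M ^ 2 / (2 * (M / Real.sqrt ε)) +
        (M / Real.sqrt ε * ε + M ^ 2 / (M / Real.sqrt ε)) =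
        (3 / 2 + π / 2 + 1) * (M * Real.sqrt ε) := by
      have e1 : M / Real.sqrt ε * ε = M * Real.sqrt ε := by
        rw [div_mul_eq_mul_div, div_eq_iff hs.ne', mul_assoc, hse]
      rw [e1]
      field_simp
      ring
    rw [h2] at h1
    have h3 : 0 < M * Real.sqrt ε := by positivity
    nlinarith
end Vale.Agent.P116.KF.H737
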